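import Crest.Agent.X262.Irr93.Bet
import Crest.Agent.R275.EDRAtl_890
import Crest.Agent.X277.AN.G1Gaga

/-!
# X262 / Eul93 (helper93): the Euler number

* `BT A`, `drs A` : the bundle of all forms in the monomial basis, its de Rham structure;
* `KP.st_eq`      : the supertrace on the cohomology of a Kaehler package;
* `nv_eq`         : `nv A = ∑ (-1)^(p+q) h^{p,q}`;  `eulStmt : Lat.EulStmt`.
-/

set_option autoImplicit false
set_option linter.unusedSectionVars false
set_option linter.unusedVariables false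

open Set Filter Topology Complex Module
open scoped ContDiff Matrix ComplexConjugate

namespace Crest.Agent.X262.Eul93

open Crest.Agent.R275.Geo Crest.Agent.X262.Kah Crest.Agent.X262.Kah.Fib Crest.Agent.X262.Lat
open Crest.Agent.R208.F Crest.Agent.R208.CW Crest.Agent.R275.EDR890 Crest.Agent.R275.NA7763

noncomputable section

/-! ### algebra -/

section alg

variable {n : ℕ} {S : Type*} [AddCommGroup S] [Module ℂ S]

/-- the de Rham supercomplex -/
def scK (G : KA n S) : SC ℂ S := ⟨G.d, G.par, G.d_d, G.d_par⟩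

theorem st_eq (G : KP n S) :
    (scK G.toKA).st = ∑ x ∈ box n, (-1 : ℂ) ^ (x.1 + x.2) * (G.hpq x.1 x.2 : ℂ) := by
  obtain ⟨N, h⟩ := G.exists_N
  have := h.fin
  let f : (scK G.toKA).H →ₗ[ℂ] (S ⧸ N) :=
    Submodule.liftQ _ (N.mkQ ∘ₗ (LinearMap.ker G.d).subtype) (by
      rintro ⟨x, hx⟩ ⟨y, hy⟩
      exact (Submodule.Quotient.mk_eq_zero N).2 (h.of_ex ⟨y, hy⟩))
  have hf : ∀ x hx, f ((scK G.toKA).cls x hx) = N.mkQ x := fun _ _ => rfl
  have hb : Function.Bijective f := by
    constructor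
    · rw [injective_iff_map_eq_zero]
      refine (scK G.toKA).ind fun x hx h0 => ?_
      exact (SC.cls_eq_zero _ hx).2 (h.ex ((Submodule.Quotient.mk_eq_zero N).1 h0) hx)
    · intro y
      rw [← h.gq.sum_pr y, ← LinearMap.mem_range]
      refine Submodule.sum_mem _ fun x _ => ?_
      obtain ⟨z, z1, z2⟩ := h.gq_rep (h.gq.ty_pr x.1 x.2 y)
      exact ⟨(scK G.toKA).cls z z1.cl, z2⟩
  let e := LinearEquiv.ofBijective f hb
  have h1 : h.gq.par = e.conj (scK G.toKA).TH := by
    refine LinearMap.ext fun b => ?_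
    obtain ⟨a, rfl⟩ := e.surjective b
    rw [LinearEquiv.conj_apply_apply, LinearEquiv.symm_apply_apply]
    revert a
    refine (scK G.toKA).ind fun x hx => ?_
    show h.gq.par (N.mkQ x) = N.mkQ (G.par x)
    simp only [GS.par, GS.dg, LinearMap.sum_apply, LinearMap.smul_apply, map_sum, map_smul,
      h.gq_pr]
  rw [SC.st, ← LinearMap.trace_conj' _ e, ← h1]
  simp only [GS.par, GS.dg, map_sum, map_smul, GS.trace_pr, h.hpq_eq, smul_eq_mul]

end alg

/-! ### the bundle -/

variable {n : ℕ} {M : Type} [TopologicalSpace M] {A : Atl n M}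

/-- matrices in the monomial basis -/
def mb (T : Module.End ℂ (Fb n)) : Matrix (K n) (K n) ℂ := LinearMap.toMatrix bas bas T

theorem mb_apply (T : Module.End ℂ (Fb n)) (k l : K n) : mb T k l = bas.repr (T (bas l)) k :=
  LinearMap.toMatrix_apply _ _ _ _ _

theorem mb_zero : mb (0 : Module.End ℂ (Fb n)) = 0 := map_zero (LinearMap.toMatrix bas bas)

theorem mb_one : mb (1 : Module.End ℂ (Fb n)) = 1 := LinearMap.toMatrix_one bas

theorem mb_add (S T : Module.End ℂ (Fb n)) : mb S + mb T = mb (S + T) :=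
  (map_add (LinearMap.toMatrix bas bas) S T).symm

theorem mb_sum (T : Fin n → Module.End ℂ (Fb n)) : ∑ a, mb (T a) = mb (∑ a, T a) :=
  (map_sum (LinearMap.toMatrix bas bas) T _).symm

/-- coordinates in the monomial basis -/
abbrev eb (n : ℕ) : Fb n ≃ₗ[ℂ] (K n → ℂ) := (bas (n := n)).equivFun

theorem mb_mulVec (T : Module.End ℂ (Fb n)) (c : Fb n) : mb T *ᵥ eb n c = eb n (T c) :=
  LinearMap.toMatrix_mulVec_repr bas bas T c

theorem mb_ext {m m' : Matrix (K n) (K n) ℂ} (h : ∀ c, m *ᵥ eb n c = m' *ᵥ eb n c) : m = m' := by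
  apply Matrix.toLin'.injective
  refine LinearMap.ext fun v => ?_
  obtain ⟨c, rfl⟩ := (eb n).surjective v
  exact h c

theorem mb_mul (S T : Module.End ℂ (Fb n)) : mb S * mb T = mb (S * T) :=
  (LinearMap.toMatrix_mul bas S T).symm

theorem mb_anti (S T : Module.End ℂ (Fb n)) : mb S * mb T + mb T * mb S = mb (S * T + T * S) := by
  rw [mb_mul, mb_mul, mb_add]

theorem mb_ite (p : Prop) [Decidable p] :
    mb (if p then 1 else 0 : Module.End ℂ (Fb n)) = if p then 1 else 0 := by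
  split_ifs
  · exact mb_one
  · exact mb_zero

/-- the complex differential of the transition map -/
def Lc (A : Atl n M) (i j : A.ι) (z : Cn n) : Cn n →ₗ[ℝ] Cn n :=
  ((fderiv ℂ (tr A i j) z : Cn n →L[ℂ] Cn n) : Cn n →ₗ[ℂ] Cn n).restrictScalars ℝ

theorem Lc_I (i j : A.ι) (z v : Cn n) : Lc A i j z (I • v) = I • Lc A i j z v :=
  map_smul (fderiv ℂ (tr A i j) z) I v

theorem Lc_eq {i j : A.ι} {z : Cn n} (hz : z ∈ A.ov i j) : Lc A i j z = Dtr A i j z :=
  (Dtr_eq hz).symm

theorem tau_ev {i j : A.ι} {z : Cn n} (hz : z ∈ A.ov i j) (k l : K n) :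
    (fun y => mb (pbE (Lc A i j (A.e i ((A.e i).symm y)))) k l) =ᶠ[𝓝 z]
      fun y => bas.coord k (pbC (Dr (tr A i j) y) (bas l)) := by
  filter_upwards [(isOpen_ov' i j).mem_nhds hz] with y hy
  rw [(A.e i).right_inv hy.1, Lc_eq hy, mb_apply]
  rfl

/-- Wirtinger derivatives of forms -/
def pw (s : WI n) (om : Cn n → Fb n) (z : Cn n) : Fb n :=
  bif s.1 then pzbC s.2 om z else pzC s.2 om z

theorem wd_fun (t : Fb n →ₗ[ℂ] ℂ) (s : WI n) {om : Cn n → Fb n} {z : Cn n} (h : CD 1 om z) :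
    wd s (fun y => t (om y)) z = t (pw s om z) := by
  obtain ⟨b, a⟩ := s
  cases b
  · show (1 / 2 : ℂ) • (fderiv ℝ _ z (ep a) + (-I) • fderiv ℝ _ z (EuclideanSpace.single a I)) =
      t (pzC a om z)
    rw [← I_ep]
    simp only [pzC, fderiv_fun t _ h, map_smul, map_sub, neg_smul, ← sub_eq_add_neg]
  · exact dbj_fun t a h

theorem sum_tau {i j : A.ι} {x : M} (hx : x ∈ (A.e i).source ∩ (A.e j).source) (b : Bool)
    (e : Fin n → Module.End ℂ (Fb n))
    (h : ∀ c, ∑ a, e a (pw (b, a) (fun y => pbC (Dr (tr A i j) y) c) (A.e i x)) = 0) :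
    ∑ a, mb (e a) * Matrix.of (fun k l =>
      wd (b, a) (fun z => mb (pbE (Lc A i j (A.e i ((A.e i).symm z)))) k l) (A.e i x)) = 0 := by
  have hz := Kah.mem_ov hx
  have h2 := (tr_contDiffAt hz).of_le two_le_inf
  ext k l
  have h1 : ∀ a k', wd (b, a) (fun z => mb (pbE (Lc A i j (A.e i ((A.e i).symm z)))) k' l)
      (A.e i x) = eb n (pw (b, a) (fun y => pbC (Dr (tr A i j) y) (bas l)) (A.e i x)) k' :=
    fun a k' => by
      rw [wd_congr (tau_ev hz k' l), wd_fun _ _ (CD_pbc h2 (by norm_num) _)]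
      rfl
  have h3 := congrArg (fun c => eb n c k) (h (bas l))
  simp only [map_sum, map_zero, Finset.sum_apply, Pi.zero_apply] at h3
  rw [Matrix.sum_apply, Matrix.zero_apply, ← h3]
  refine Finset.sum_congr rfl fun a _ => ?_
  rw [← mb_mulVec]
  simp only [Matrix.mul_apply, Matrix.of_apply, h1]
  rfl

/-- the bundle of all forms, graded by the antiholomorphic degree -/
@[reducible] def BT (A : Atl n M) : FBun A where
  κ := K n
  deg := tq
  e a := mb (ezb a)
  io a := mb (izb a)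
  e_deg a k l h := (toMatrix_type (Ty.ezb_mem a (bas_mem l)) h).2
  io_deg a k l h := by
    have h1 := (toMatrix_type (Ty.izb_mem' a (bas_mem l)) h).2
    have h2 : tq l ≠ 0 := fun h0 => h (by
      rw [mb_apply, Ty.izb_eq_zero a (h0 ▸ bas_mem l), map_zero]; rfl)
    omega
  ee a b := by rw [mb_anti, ezb_ezb, mb_zero]
  ii a b := by rw [mb_anti, izb_izb, mb_zero]
  ei a b := by rw [mb_anti, ezb_izb, mb_ite]
  τ i j x := mb (pbE (Lc A i j (A.e i x)))
  τ_smooth i j k l z hz :=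
    ((CD_fun _ (CD_pbc (j := ∞) (tr_contDiffAt hz) (by simp) (bas l))).congr_of_eventuallyEq
      (tau_ev hz k l)).contDiffWithinAt
  τ_deg i j x k l h := (toMatrix_type (Ty.pb_mem (Lc_I i j _) (bas_mem l)) h).2
  τ_self i x hx := by
    rw [Lc_eq (Kah.mem_ov ⟨hx, hx⟩), Dtr_self ((A.e i).map_source hx),
      ← mb_one]
    congr 1
    exact LinearMap.ext fun c => Cx.ext (pb_id _) (pb_id _)
  τ_mul i j k x hx := by
    rw [mb_mul, Lc_eq (Kah.mem_ov hx.1), Lc_eq (Kah.mem_ov ⟨hx.1.2, hx.2⟩),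
      Lc_eq (Kah.mem_ov ⟨hx.1.1, hx.2⟩)]
    congr 1
    refine LinearMap.ext fun c => ?_
    show pbC _ (pbC _ c) = pbC _ c
    rw [Kah.pbC_comp, ← Dtr_comp (Kah.mem_ov hx.1) (Kah.mem_ov ⟨hx.1.1, hx.2⟩), tr_e hx.1.1]
  τ_symb i j x hx b := mb_ext fun c => by
    rw [Matrix.sum_mulVec, mb_mul, mb_mulVec]
    simp only [Matrix.smul_mulVec, mb_mul, mb_mulVec]
    show _ = eb n (pbC _ (dzb b * c))
    rw [map_mul, pbC_dzb (Lc_I i j _), Finset.sum_mul, map_sum]
    exact Finset.sum_congr rfl fun a _ => by rw [smul_mul_assoc, map_smul]; rfl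
  α _ _ := 0
  α_smooth _ _ _ := contDiffOn_const
  α_deg _ _ _ _ h := (h rfl).elim
  α_tr i j x hx := by
    rw [Matrix.zero_mul, Matrix.mul_zero, add_zero]
    exact sum_tau hx true ezb fun c => dbC_pbc (tr_holo (Kah.mem_ov hx))
      ((tr_contDiffAt (Kah.mem_ov hx)).of_le two_le_inf) c

/-- the de Rham structure -/
def drs (A : Atl n M) : DRS (BT A) where
  α0 _ _ := rfl
  pdeg := tp
  f a := mb (ez a)
  jo a := mb (iz a)
  e_pdeg a k l h := (toMatrix_type (Ty.ezb_mem a (bas_mem l)) h).1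
  f_deg a k l h := (toMatrix_type (Ty.ez_mem a (bas_mem l)) h).2
  f_pdeg a k l h := (toMatrix_type (Ty.ez_mem a (bas_mem l)) h).1
  ff a b := by rw [mb_anti, ez_ez, mb_zero]
  fe a b := by rw [mb_anti, ez_ezb, mb_zero]
  fj a b := by rw [mb_anti, ez_iz, mb_ite]
  fi a b := by rw [mb_anti, ez_izb, mb_zero]
  ej a b := by rw [mb_anti, ezb_iz, mb_zero]
  num := by
    simp only [mb_mul]
    rw [mb_sum, mb_sum, mb_add]
    ext k l
    rw [mb_apply]
    show bas.repr (Nzb (bas l) + Nz (bas l)) k = _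
    rw [Nzb_bas, Nz_bas, ← add_smul, map_smul, Basis.repr_self, Matrix.diagonal_apply,
      Finsupp.smul_apply, Finsupp.single_apply]
    split_ifs with h1 h2 h2
    · rw [h1]; simp
    · exact (h2 h1.symm).elim
    · exact (h1 h2.symm).elim
    · simp
  τ_pdeg i j x k l h := (toMatrix_type (Ty.pb_mem (Lc_I i j _) (bas_mem l)) h).1
  f_symb i j x hx b := mb_ext fun c => by
    rw [Matrix.sum_mulVec, mb_mul, mb_mulVec]
    simp only [Matrix.smul_mulVec, mb_mul, mb_mulVec]
    show _ = eb n (pbC _ (dz b * c))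
    rw [map_mul, pbC_dz (Lc_I i j _), Finset.sum_mul, map_sum]
    exact Finset.sum_congr rfl fun a _ => by rw [smul_mul_assoc, map_smul]; rfl
  f_closed i j x hx := sum_tau hx false ez fun c => by
    show dlC _ _ = 0
    rw [dlC_eq]
    simp only [conj_pbC]
    rw [dbC_pbc (tr_holo (Kah.mem_ov hx)) ((tr_contDiffAt (Kah.mem_ov hx)).of_le two_le_inf),
      map_zero]
  k0 := ∅
  vac k := by
    show tq k + tp k = 0 ↔ _
    rw [add_comm, tp_add_tq, Finset.card_eq_zero]

open Classical in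
/-- a form as a family of coordinate vectors -/
def toT (u : FS A) : A.ι → M → K n → ℂ := fun i x =>
  if x ∈ (A.e i).source then eb n (u.1 i (A.e i x)) else 0

theorem toT_of_mem (u : FS A) {i : A.ι} {x : M} (hx : x ∈ (A.e i).source) :
    toT u i x = eb n (u.1 i (A.e i x)) := if_pos hx

theorem toT_ev (u : FS A) {i : A.ι} {z : Cn n} (hz : z ∈ (A.e i).target) :
    (fun y => toT u i ((A.e i).symm y)) =ᶠ[𝓝 z] fun y => eb n (u.1 i y) := by
  filter_upwards [(A.e i).open_target.mem_nhds hz] with y hy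
  rw [toT_of_mem u ((A.e i).map_target hy), (A.e i).right_inv hy]

theorem sm_eb (u : FS A) {i : A.ι} {z : Cn n} (hz : z ∈ (A.e i).target) :
    ContDiffAt ℝ ∞ (fun y => eb n (u.1 i y)) z :=
  contDiffAt_pi.2 fun k => CD_fun (bas.coord k) (u.sm hz)

theorem toT_mem (u : FS A) : toT u ∈ SecOn (BT A) ⊤ := by
  refine ⟨fun i x hx _ => ?_, fun i x hx => if_neg fun h => hx ⟨h, trivial⟩,
    fun i j x hx _ => ?_⟩
  · exact (sm_eb u ((A.e i).map_source hx)).congr_of_eventuallyEq
      (toT_ev u ((A.e i).map_source hx))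
  · rw [toT_of_mem u hx.1, toT_of_mem u hx.2, u.tr' (Kah.mem_ov hx), tr_e hx.1,
      ← Lc_eq (Kah.mem_ov hx)]
    exact (mb_mulVec (pbE _) _).symm

theorem sec_ext {s s' : SecOn (BT A) ⊤} (h : ∀ i, ∀ x ∈ (A.e i).source, s.1 i x = s'.1 i x) :
    s = s' := Subtype.ext (SecOn.ext_of s.2 s'.2 fun x _ => (A.cover x).imp fun i hi =>
      ⟨hi, h i x hi⟩)

/-- forms as sections -/
def eT (A : Atl n M) : FS A →ₗ[ℂ] SecOn (BT A) ⊤ where
  toFun u := ⟨toT u, toT_mem u⟩
  map_add' u v := sec_ext fun i x hx => by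
    show toT (u + v) i x = toT u i x + toT v i x
    rw [toT_of_mem _ hx, toT_of_mem _ hx, toT_of_mem _ hx, FS.add_apply, map_add]
  map_smul' c u := sec_ext fun i x hx => by
    show toT (c • u) i x = c • toT u i x
    rw [toT_of_mem _ hx, toT_of_mem _ hx, FS.smul_apply, map_smul]

theorem eT_inj : Function.Injective (eT A) := fun u v h => FS.ext' fun i z hz => by
  have h1 : toT u i ((A.e i).symm z) = toT v i ((A.e i).symm z) :=
    congrArg (fun s : SecOn (BT A) ⊤ => s.1 i ((A.e i).symm z)) h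
  exact (eb n).injective ((toT_ev u hz).self_of_nhds.symm.trans
    (h1.trans (toT_ev v hz).self_of_nhds))

theorem eT_surj : Function.Surjective (eT A) := fun s => by
  refine ⟨FS.mk' (fun i z => (eb n).symm (s.1 i ((A.e i).symm z))) (fun i z hz => ?_)
    fun i j z hz => ?_, sec_ext fun i x hx => ?_⟩
  · simp only [Basis.equivFun_symm_apply]
    have h := s.2.1 i _ ((A.e i).map_target hz) trivial
    rw [SmP, (A.e i).right_inv hz] at h
    exact CD.sum fun k _ => CD_fsmul (contDiffAt_pi.1 h k) (CD.const _)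
  · apply (eb n).injective
    have hx : (A.e i).symm z ∈ (A.e i).source ∩ (A.e j).source :=
      ⟨(A.e i).map_target hz.1, hz.2⟩
    rw [LinearEquiv.apply_symm_apply, symm_tr hz, s.2.2.2 i j _ hx trivial]
    have h := mb_mulVec (pbE (Dtr A i j z)) ((eb n).symm (s.1 j ((A.e i).symm z)))
    rw [LinearEquiv.apply_symm_apply] at h
    show mb (pbE (Lc A i j (A.e i ((A.e i).symm z)))) *ᵥ _ = _
    rw [(A.e i).right_inv hz.1, Lc_eq hz]
    exact h
  · show toT _ i x = _
    rw [toT_of_mem _ hx, FS.mk'_apply ((A.e i).map_source hx), (A.e i).left_inv hx,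
      LinearEquiv.apply_symm_apply]

theorem eT_d (u : FS A) : ((drs A).sc ⊤).d (eT A u) = eT A (dF A u) := sec_ext fun i x hx => by
  have hz := (A.e i).map_source hx
  have h1 : ∀ s, wd s (fun y => eb n (u.1 i y)) (A.e i x) = eb n (pw s (u.1 i) (A.e i x)) :=
    fun s => funext fun k => by
      rw [wd_pi ((sm_eb u hz).differentiableAt (by simp))]
      exact wd_fun (bas.coord k) s (u.sm1 hz)
  show (drs A).dOn _ (toT u) i x = toT _ i x
  rw [(drs A).dOn_apply hx (by trivial), (drs A).Φ.D_congr (toT_ev u hz), toT_of_mem _ hx,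
    dF_apply _ hz, dC_eq (u.sm1 hz), Fock.D, Fintype.sum_prod_type, Fintype.sum_bool, add_comm,
    dlC, dbC, map_add, map_sum, map_sum]
  simp only [h1]
  congr 1
  · exact Finset.sum_congr rfl fun a _ => mb_mulVec (ez a) _
  · exact Finset.sum_congr rfl fun a _ => mb_mulVec (ezb a) _

theorem eT_T (u : FS A) : ((drs A).sc ⊤).T (eT A u) = eT A (invF A u) := sec_ext fun i x hx => by
  funext k
  show (-1 : ℂ) ^ (tq k + tp k) * toT u i x k = toT _ i x k
  rw [toT_of_mem _ hx, toT_of_mem _ hx, add_comm]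
  exact (repr_diag (T := invL' n) (f := fun k => (-1 : ℂ) ^ (tp k + tq k))
    (fun S => Ty.invC_eq (bas_mem S)) _ k).symm

variable [T2Space M] [Fintype A.ι] [CompactSpace M] (K : KF A) (P : Part A)

/-- **the Euler number** in terms of the Hodge numbers -/
theorem nv_eq (hA : Crest.Agent.R275.GC293.GoodA A) :
    nv A = ∑ x ∈ box n, (-1 : ℤ) ^ (x.1 + x.2).toNat * ((K.kp P).hpq x.1 x.2 : ℤ) := by
  let φ : SC.Hom (scK (K.kp P).toKA) ((drs A).sc ⊤) :=
    ⟨eT A, fun u => (eT_d u).trans (congrArg (eT A) (K.kp_d P u).symm),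
      fun u => (eT_T u).trans (congrArg (eT A) (K.kp_par P u).symm)⟩
  have h := (SCx.iso_quasi φ eT_inj eT_surj).st_eq
  rw [((drs A).nerve_atl hA P).2, st_eq] at h
  apply Int.cast_injective (α := ℂ)
  rw [nv, ← h]
  push_cast
  refine Finset.sum_congr rfl fun x hx => ?_
  obtain ⟨p, q⟩ := x
  have := mem_box.1 hx
  rw [← zpow_natCast, Int.toNat_of_nonneg (by omega)]

include K P in
/-- **the Euler number** in terms of the Betti numbers -/
theorem nv_eq_bet (hA : Crest.Agent.R275.GC293.GoodA A) :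
    nv A = ∑ k ∈ Finset.range (2 * n + 1), (-1 : ℤ) ^ k * (bet A k : ℤ) := by
  rw [nv_eq K P hA, ← Finset.sum_fiberwise_of_maps_to (s := box n) (t := Finset.range (2 * n + 1))
    (g := fun x => (x.1 + x.2).toNat) fun ⟨p, q⟩ hx => by
      have := mem_box.1 hx
      rw [Finset.mem_range]; omega]
  refine Finset.sum_congr rfl fun k _ => ?_
  rw [Irr93.bet_eq_box K P, Nat.cast_sum, Finset.mul_sum]
  refine Finset.sum_congr (Finset.filter_congr fun ⟨p, q⟩ hx => ?_) fun ⟨p, q⟩ hx => ?_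
  · have := mem_box.1 hx
    omega
  · rw [(Finset.mem_filter.1 hx).2, Int.toNat_natCast]

open Crest.Agent.X277.Lef Crest.Agent.X277.AN.G1 in
/-- **the Euler number of a surface** -/
theorem eulStmt : EulStmt := by
  intro F _ _ P b X _
  let K : KF X.A := KF.ofKah (Crest.Agent.R273.FS_333.fsKah X.Pr)
  have h0 := Irr93.bet_zero K X.PA
  have h4 := Irr93.bet_dual K X.PA (k := 4) (l := 0) rfl
  have h3 := Irr93.bet_dual K X.PA (k := 3) (l := 1) rfl
  rw [nv_eq_bet K X.PA X.good]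
  simp only [Finset.sum_range_succ, Finset.range_zero, Finset.sum_empty, h4, h3, h0]
  push_cast
  ring

end

end Crest.Agent.X262.Eul93
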